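import Vale.Agent.H29.CK.Defs

/-!
# P322: the two-point cost in centre/half-difference coordinates
-/

open Real

namespace CK

/-- The two-point cost in the coordinates `M = (s+t)/2`, `D = (s-t)/2`. -/
noncomputable def cm (M D : ℝ) : ℝ := D * (A (M + D) - A (M - D)) / 2

theorem cm_eq (s t : ℝ) : cc s t = cm ((s + t) / 2) ((s - t) / 2) := by
  unfold cm cc
  have h1 : (s + t) / 2 + (s - t) / 2 = s := by ring
  have h2 : (s + t) / 2 - (s - t) / 2 = t := by ring
  rw [h1, h2]; ring

theorem cm_cc (M D : ℝ) : cm M D = cc (M + D) (M - D) := by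
  unfold cm cc
  ring

theorem Ht_eq (s t : ℝ) : (H s + H t) / 2 = Ht ((s + t) / 2) ((s - t) / 2) := by
  unfold Ht
  have h1 : (s + t) / 2 + (s - t) / 2 = s := by ring
  have h2 : (s + t) / 2 - (s - t) / 2 = t := by ring
  rw [h1, h2]

end CK
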