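import Vale.Agent.H23.CK.Defs

/-!
# P322: supporting planes for the two-point cost (the estimate called (C))
-/

open Real Set

namespace CK.Tan

/-- `l r = log (1 - r^2) / 2`. -/
noncomputable def l (r : ℝ) : ℝ := (log (1 + r) + log (1 - r)) / 2

theorem dlog1 {t : ℝ} (h : -1 < t) : HasDerivAt (fun t : ℝ => log (1 + t)) (1 / (1 + t)) t :=
  ((hasDerivAt_id t).const_add 1).log (by simp only [id]; linarith)

theorem dlog2 {t : ℝ} (h : t < 1) : HasDerivAt (fun t : ℝ => log (1 - t)) (-1 / (1 - t)) t :=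
  ((hasDerivAt_id t).const_sub 1).log (by simp only [id]; linarith)

theorem dA {t : ℝ} (h : t ∈ Ioo (-1 : ℝ) 1) : HasDerivAt A (1 / (1 - t ^ 2)) t := by
  obtain ⟨h1, h2⟩ := h
  have a3 := ((dlog1 h1).sub (dlog2 h2)).div_const 2
  refine a3.congr_deriv ?_
  have e1 : 1 + t ≠ 0 := by linarith
  have e2 : 1 - t ≠ 0 := by linarith
  have e3 : 1 - t ^ 2 ≠ 0 := by
    have : 1 - t ^ 2 = (1 + t) * (1 - t) := by ring
    rw [this]; exact mul_ne_zero e1 e2
  field_simp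
  ring

theorem dl {t : ℝ} (h : t ∈ Ioo (-1 : ℝ) 1) : HasDerivAt l (-t / (1 - t ^ 2)) t := by
  obtain ⟨h1, h2⟩ := h
  have a3 := ((dlog1 h1).add (dlog2 h2)).div_const 2
  refine a3.congr_deriv ?_
  have e1 : 1 + t ≠ 0 := by linarith
  have e2 : 1 - t ≠ 0 := by linarith
  have e3 : 1 - t ^ 2 ≠ 0 := by
    have : 1 - t ^ 2 = (1 + t) * (1 - t) := by ring
    rw [this]; exact mul_ne_zero e1 e2
  field_simp
  ring

theorem H_eq {t : ℝ} (h : t ∈ Ioo (-1 : ℝ) 1) :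
    H t = log 2 - ((1 + t) * log (1 + t) + (1 - t) * log (1 - t)) / 2 := by
  obtain ⟨h1, h2⟩ := h
  unfold H
  rw [binEntropy_eq_negMulLog_add_negMulLog_one_sub]
  unfold negMulLog
  have e1 : 1 - (1 + t) / 2 = (1 - t) / 2 := by ring
  rw [e1, Real.log_div (by linarith) (by norm_num), Real.log_div (by linarith) (by norm_num)]
  ring

theorem J_eq {t : ℝ} (h : t ∈ Ioo (-1 : ℝ) 1) :
    J t = ((1 + t) * log (1 + t) + (1 - t) * log (1 - t)) / 2 := by
  unfold J; rw [H_eq h]; ring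

theorem J_sub {t : ℝ} (h : t ∈ Ioo (-1 : ℝ) 1) : J t - t * A t = l t := by
  rw [J_eq h]; unfold A l; ring

/-- `phi = x A(x) - γ J(x)`. -/
noncomputable def phi (g x : ℝ) : ℝ := x * A x - g * J x

/-- the derivative of `phi`. -/
noncomputable def phi1 (g x : ℝ) : ℝ := (1 - g) * A x + x / (1 - x ^ 2)

/-- the second derivative of `phi`. -/
noncomputable def phi2 (g x : ℝ) : ℝ := (2 / (1 - x ^ 2) - g) / (1 - x ^ 2)

theorem one_sub_sq_pos {x : ℝ} (h : x ∈ Ioo (-1 : ℝ) 1) : 0 < 1 - x ^ 2 := by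
  nlinarith [h.1, h.2]

theorem dphi {g x : ℝ} (h : x ∈ Ioo (-1 : ℝ) 1) : HasDerivAt (phi g) (phi1 g x) x := by
  have a := ((hasDerivAt_id x).mul (dA h)).sub ((hasDerivAt_J h).const_mul g)
  refine a.congr_deriv ?_
  unfold phi1
  simp only [id]
  have := (one_sub_sq_pos h).ne'
  field_simp
  ring

theorem dphi1 {g x : ℝ} (h : x ∈ Ioo (-1 : ℝ) 1) : HasDerivAt (phi1 g) (phi2 g x) x := by
  have hp := (one_sub_sq_pos h).ne'
  have b : HasDerivAt (fun x : ℝ => x / (1 - x ^ 2)) ((1 * (1 - x ^ 2) - x * (-(2 * x))) / (1 - x ^ 2) ^ 2) x := by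
    refine (hasDerivAt_id x).div ?_ hp
    have := (hasDerivAt_pow 2 x).const_sub 1
    refine this.congr_deriv ?_
    norm_num
  have a := ((dA h).const_mul (1 - g)).add b
  refine a.congr_deriv ?_
  unfold phi2
  field_simp
  ring

theorem phi_sub {g x : ℝ} (h : x ∈ Ioo (-1 : ℝ) 1) :
    phi g x - x * phi1 g x = - (x ^ 2 / (1 - x ^ 2)) - g * l x := by
  rw [← J_sub h]; unfold phi phi1; ring

/-- the reduced function `(cm + γ Ht) / (1 - M)`, twice. -/
noncomputable def gT (g ρ τ : ℝ) : ℝ :=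
  phi g ρ + τ * phi g (ρ / τ) + g * ((1 + τ) * log (1 + τ) - τ * log τ)

theorem gT_eq (g : ℝ) {M D : ℝ} (hM : 0 ≤ M) (hD : 0 ≤ D) (h : M + D < 1) :
    2 * (cm M D + g * Ht M D) = (1 - M) * gT g (D / (1 - M)) ((1 + M) / (1 - M)) := by
  have hu : 0 < 1 - M := by linarith
  have hv : 0 < 1 + M := by linarith
  have e0 : D / (1 - M) / ((1 + M) / (1 - M)) = D / (1 + M) := by
    field_simp
  have m1 : D / (1 - M) ∈ Ioo (-1 : ℝ) 1 := by
    constructor
    · have : 0 ≤ D / (1 - M) := by positivity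
      linarith
    · rw [div_lt_one hu]; linarith
  have m2 : D / (1 + M) ∈ Ioo (-1 : ℝ) 1 := by
    constructor
    · have : 0 ≤ D / (1 + M) := by positivity
      linarith
    · rw [div_lt_one hv]; linarith
  have m3 : M + D ∈ Ioo (-1 : ℝ) 1 := ⟨by linarith, by linarith⟩
  have m4 : M - D ∈ Ioo (-1 : ℝ) 1 := ⟨by linarith, by linarith⟩
  have l1 : log (1 + D / (1 - M)) = log (1 - (M - D)) - log (1 - M) := by
    rw [← log_div (by linarith) hu.ne']; congr 1; field_simp; ring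
  have l2 : log (1 - D / (1 - M)) = log (1 - (M + D)) - log (1 - M) := by
    rw [← log_div (by linarith) hu.ne']; congr 1; field_simp; ring
  have l3 : log (1 + D / (1 + M)) = log (1 + (M + D)) - log (1 + M) := by
    rw [← log_div (by linarith) hv.ne']; congr 1; field_simp; ring
  have l4 : log (1 - D / (1 + M)) = log (1 + (M - D)) - log (1 + M) := by
    rw [← log_div (by linarith) hv.ne']; congr 1; field_simp; ring
  have l5 : log (1 + (1 + M) / (1 - M)) = log 2 - log (1 - M) := by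
    rw [← log_div (by norm_num) hu.ne']; congr 1; field_simp; ring
  have l6 : log ((1 + M) / (1 - M)) = log (1 + M) - log (1 - M) := by
    rw [← log_div hv.ne' hu.ne']
  unfold gT
  rw [e0]
  unfold cm Ht phi
  rw [J_eq m1, J_eq m2, H_eq m3, H_eq m4, l5, l6]
  unfold A
  rw [l1, l2, l3, l4]
  field_simp
  ring

/-- `N` -/
noncomputable def NN (ρ τ : ℝ) : ℝ := log (1 + τ) - log τ - l (ρ / τ)

theorem log_lower {τ : ℝ} (h : 0 < τ) : 1 / (1 + τ) ≤ log (1 + τ) - log τ := by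
  rw [← log_div (by linarith) h.ne']
  have h1 : 0 < (1 + τ) / τ := by positivity
  have h2 := one_sub_inv_le_log_of_pos h1
  refine le_trans (le_of_eq ?_) h2
  field_simp
  ring

theorem l_upper {r : ℝ} (h : r ∈ Ioo (-1 : ℝ) 1) : l r ≤ -(r ^ 2 / 2) := by
  have h1 := one_sub_sq_pos h
  have h2 := log_le_sub_one_of_pos h1
  have h3 : log (1 - r ^ 2) = log (1 + r) + log (1 - r) := by
    rw [← log_mul (by linarith [h.1]) (by linarith [h.2])]; congr 1; ring
  unfold l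
  rw [← h3]; linarith

theorem rat_mem {ρ τ : ℝ} (h0 : 0 ≤ ρ) (h1 : ρ < 1) (ht : 1 ≤ τ) : ρ / τ ∈ Ioo (-1 : ℝ) 1 := by
  have hτ : 0 < τ := by linarith
  constructor
  · have : 0 ≤ ρ / τ := by positivity
    linarith
  · rw [div_lt_one hτ]; linarith

theorem NN_lower {ρ τ : ℝ} (h0 : 0 ≤ ρ) (h1 : ρ < 1) (ht : 1 ≤ τ) :
    1 / (1 + τ) + (ρ / τ) ^ 2 / 2 ≤ NN ρ τ := by
  have := log_lower (by linarith : 0 < τ)
  have := l_upper (rat_mem h0 h1 ht)
  unfold NN
  linarith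

theorem d_rat {ρ τ : ℝ} (ht : 0 < τ) : HasDerivAt (fun τ => ρ / τ) (-(ρ / τ ^ 2)) τ := by
  have := (hasDerivAt_inv ht.ne').const_mul ρ
  refine (this.congr_deriv ?_)
  ring

theorem d_tlogt {τ : ℝ} (ht : 0 < τ) :
    HasDerivAt (fun τ => (1 + τ) * log (1 + τ) - τ * log τ) (log (1 + τ) - log τ) τ := by
  have a1 := ((hasDerivAt_id τ).const_add 1).mul (dlog1 (by linarith : -1 < τ))
  have a2 := (hasDerivAt_id τ).mul (hasDerivAt_log ht.ne')
  refine (a1.sub a2).congr_deriv ?_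
  simp only [id]
  have : 1 + τ ≠ 0 := by linarith
  field_simp
  ring

/-- the derivative of `gT` in `τ`. -/
theorem d_gT {g ρ τ : ℝ} (h0 : 0 ≤ ρ) (h1 : ρ < 1) (ht : 1 ≤ τ) :
    HasDerivAt (fun τ => gT g ρ τ) (g * NN ρ τ - (ρ / τ) ^ 2 / (1 - (ρ / τ) ^ 2)) τ := by
  have hτ : 0 < τ := by linarith
  have hm := rat_mem h0 h1 ht
  have a1 : HasDerivAt (fun τ => phi g (ρ / τ)) (phi1 g (ρ / τ) * (-(ρ / τ ^ 2))) τ :=
    HasDerivAt.comp (h₂ := phi g) τ (dphi hm) (d_rat hτ)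
  have a2 := (hasDerivAt_id τ).mul a1
  have a3 := (a2.const_add (phi g ρ)).add ((d_tlogt hτ).const_mul g)
  refine a3.congr_deriv ?_
  have e := phi_sub (g := g) hm
  unfold NN
  simp only [id]
  have e2 : τ * (phi1 g (ρ / τ) * (-(ρ / τ ^ 2))) = -(ρ / τ * phi1 g (ρ / τ)) := by
    field_simp
  rw [e2]
  linarith

/-- `k`: the sign of the derivative in `τ` is that of `g * k - ρ²`. -/
noncomputable def kk (ρ τ : ℝ) : ℝ := (τ ^ 2 - ρ ^ 2) * NN ρ τ

theorem d_NN {ρ τ : ℝ} (h0 : 0 ≤ ρ) (h1 : ρ < 1) (ht : 1 ≤ τ) :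
    HasDerivAt (fun τ => NN ρ τ) (1 / (1 + τ) - τ / (τ ^ 2 - ρ ^ 2)) τ := by
  have hτ : 0 < τ := by linarith
  have hm := rat_mem h0 h1 ht
  have a1 : HasDerivAt (fun τ => l (ρ / τ)) (-(ρ / τ) / (1 - (ρ / τ) ^ 2) * (-(ρ / τ ^ 2))) τ :=
    HasDerivAt.comp (h₂ := l) τ (dl hm) (d_rat hτ)
  have a2 := ((dlog1 (by linarith : -1 < τ)).sub (hasDerivAt_log hτ.ne')).sub a1
  refine a2.congr_deriv ?_
  have e1 : τ ^ 2 - ρ ^ 2 ≠ 0 := by nlinarith
  have e2 : 1 - (ρ / τ) ^ 2 = (τ ^ 2 - ρ ^ 2) / τ ^ 2 := by field_simp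
  rw [e2]
  have e3 : 1 + τ ≠ 0 := by linarith
  field_simp
  ring

theorem kk_mono {ρ : ℝ} (h0 : 0 ≤ ρ) (h1 : ρ < 1) : MonotoneOn (fun τ => kk ρ τ) (Ici 1) := by
  have hd : ∀ τ : ℝ, 1 ≤ τ → HasDerivAt (fun τ => kk ρ τ)
      (2 * τ * NN ρ τ + (τ ^ 2 - ρ ^ 2) * (1 / (1 + τ) - τ / (τ ^ 2 - ρ ^ 2))) τ := by
    intro τ ht
    have a := ((hasDerivAt_pow 2 τ).sub_const (ρ ^ 2)).mul (d_NN h0 h1 ht)
    refine a.congr_deriv ?_
    norm_num
  refine monotoneOn_of_deriv_nonneg (convex_Ici 1) ?_ ?_ ?_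
  · intro τ ht
    exact (hd τ ht).continuousAt.continuousWithinAt
  · intro τ ht
    rw [interior_Ici] at ht
    exact (hd τ (le_of_lt ht)).differentiableAt.differentiableWithinAt
  · intro τ ht
    rw [interior_Ici] at ht
    have ht : 1 < τ := ht
    rw [(hd τ ht.le).deriv]
    have hτ : 0 < τ := by linarith
    have e1 : 0 < τ ^ 2 - ρ ^ 2 := by nlinarith
    have h3 := NN_lower h0 h1 ht.le
    have e2 : (τ ^ 2 - ρ ^ 2) * (1 / (1 + τ) - τ / (τ ^ 2 - ρ ^ 2))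
        = (τ ^ 2 - ρ ^ 2) / (1 + τ) - τ := by
      field_simp
    rw [e2]
    have h4 : 2 * τ * (1 / (1 + τ) + (ρ / τ) ^ 2 / 2) ≤ 2 * τ * NN ρ τ :=
      mul_le_mul_of_nonneg_left h3 (by linarith)
    have h5 : 0 ≤ 2 * τ * (1 / (1 + τ) + (ρ / τ) ^ 2 / 2) + ((τ ^ 2 - ρ ^ 2) / (1 + τ) - τ) := by
      have : 2 * τ * (1 / (1 + τ) + (ρ / τ) ^ 2 / 2) + ((τ ^ 2 - ρ ^ 2) / (1 + τ) - τ)
          = (τ ^ 2 + ρ ^ 2) / (τ * (1 + τ)) := by
        field_simp
        ring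
      rw [this]; positivity
    linarith

theorem gT_sign {g ρ τ : ℝ} (h0 : 0 ≤ ρ) (h1 : ρ < 1) (ht : 1 ≤ τ) :
    g * NN ρ τ - (ρ / τ) ^ 2 / (1 - (ρ / τ) ^ 2) = (g * kk ρ τ - ρ ^ 2) / (τ ^ 2 - ρ ^ 2) := by
  have hτ : 0 < τ := by linarith
  have e1 : τ ^ 2 - ρ ^ 2 ≠ 0 := by nlinarith
  have e2 : 1 - (ρ / τ) ^ 2 = (τ ^ 2 - ρ ^ 2) / τ ^ 2 := by field_simp
  rw [e2]
  unfold kk
  field_simp

/-- For fixed `ρ` the function `gT` is minimal at a critical point `τ₀`. -/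
theorem gT_min {g ρ t0 : ℝ} (hg : 0 < g) (h0 : 0 ≤ ρ) (h1 : ρ < 1) (ht0 : 1 ≤ t0)
    (hlow : ∀ t, 1 ≤ t → t < t0 → g * kk ρ t ≤ ρ ^ 2) (hup : ρ ^ 2 ≤ g * kk ρ t0)
    {τ : ℝ} (ht : 1 ≤ τ) : gT g ρ t0 ≤ gT g ρ τ := by
  rcases le_total t0 τ with h | h
  · have hmono : MonotoneOn (fun τ => gT g ρ τ) (Ici t0) := by
      refine monotoneOn_of_deriv_nonneg (convex_Ici t0) ?_ ?_ ?_
      · intro t ht
        exact (d_gT h0 h1 (le_trans ht0 ht)).continuousAt.continuousWithinAt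
      · intro t ht
        rw [interior_Ici] at ht
        exact (d_gT h0 h1 (le_trans ht0 (le_of_lt ht))).differentiableAt.differentiableWithinAt
      · intro t ht
        rw [interior_Ici] at ht
        have ht : t0 < t := ht
        have ht1 : 1 ≤ t := by linarith
        rw [(d_gT h0 h1 ht1).deriv, gT_sign h0 h1 ht1]
        have e1 : 0 < t ^ 2 - ρ ^ 2 := by nlinarith
        apply div_nonneg _ e1.le
        have := kk_mono h0 h1 (show t0 ∈ Ici (1 : ℝ) from ht0) (show t ∈ Ici (1 : ℝ) from ht1) ht.le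
        have := mul_le_mul_of_nonneg_left this hg.le
        simp only at this
        linarith
    exact hmono (mem_Ici.2 le_rfl) (show τ ∈ Ici t0 from h) h
  · have hanti : AntitoneOn (fun τ => gT g ρ τ) (Icc 1 t0) := by
      refine antitoneOn_of_deriv_nonpos (convex_Icc 1 t0) ?_ ?_ ?_
      · intro t ht
        exact (d_gT h0 h1 ht.1).continuousAt.continuousWithinAt
      · intro t ht
        rw [interior_Icc] at ht
        exact (d_gT h0 h1 ht.1.le).differentiableAt.differentiableWithinAt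
      · intro t ht
        rw [interior_Icc] at ht
        rw [(d_gT h0 h1 ht.1.le).deriv, gT_sign h0 h1 ht.1.le]
        have h3 : 1 < t := ht.1
        have e1 : 0 < t ^ 2 - ρ ^ 2 := by nlinarith
        apply div_nonpos_of_nonpos_of_nonneg _ e1.le
        have := hlow t ht.1.le ht.2
        linarith
    exact hanti (show τ ∈ Icc 1 t0 from ⟨ht, h⟩) (show t0 ∈ Icc 1 t0 from ⟨ht0, le_rfl⟩) h

/-! ## The critical curve -/

/-- `n r`: on the critical curve `log (1 + τ) - log τ = n r`. -/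
noncomputable def nn (g r : ℝ) : ℝ := r ^ 2 / (g * (1 - r ^ 2)) + l r

noncomputable def TT (g r : ℝ) : ℝ := (exp (nn g r) - 1)⁻¹

noncomputable def RR (g r : ℝ) : ℝ := r * TT g r

noncomputable def GG (g r : ℝ) : ℝ := gT g (RR g r) (TT g r)

noncomputable def BB (g r : ℝ) : ℝ := phi1 g (RR g r) + phi1 g r

/-- `κ` -/
noncomputable def kap (g r : ℝ) : ℝ := r ^ 2 * (2 / (g * (1 - r ^ 2)) - 1)

theorem d_nn {g r : ℝ} (hg : 0 < g) (h0 : 0 < r) (h1 : r < 1) :
    HasDerivAt (nn g) (kap g r / (r * (1 - r ^ 2))) r := by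
  have hm : r ∈ Ioo (-1 : ℝ) 1 := ⟨by linarith, h1⟩
  have hp := one_sub_sq_pos hm
  have b : HasDerivAt (fun x : ℝ => x ^ 2 / (g * (1 - x ^ 2)))
      ((2 * r * (g * (1 - r ^ 2)) - r ^ 2 * (g * (-(2 * r)))) / (g * (1 - r ^ 2)) ^ 2) r := by
    have b1 := hasDerivAt_pow 2 r
    have b2 := (b1.const_sub 1).const_mul g
    have := b1.div b2 (by positivity)
    refine this.congr_deriv ?_
    norm_num
  refine (b.add (dl hm)).congr_deriv ?_
  unfold kap
  field_simp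
  ring

theorem TT_pos {g r : ℝ} (h : 0 < nn g r) : 0 < TT g r := by
  unfold TT
  have := Real.add_one_le_exp (nn g r)
  have h2 : 0 < exp (nn g r) - 1 := by linarith
  positivity

theorem exp_nn {g r : ℝ} (h : 0 < nn g r) : exp (nn g r) = (1 + TT g r) / TT g r := by
  have h1 := TT_pos h
  have h2 : (TT g r)⁻¹ = exp (nn g r) - 1 := by unfold TT; rw [inv_inv]
  rw [add_div, div_self h1.ne', one_div, h2]; ring

theorem nn_eq {g r : ℝ} (h : 0 < nn g r) : nn g r = log (1 + TT g r) - log (TT g r) := by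
  have h1 := TT_pos h
  rw [← log_div (by linarith) h1.ne', ← exp_nn h, log_exp]

theorem TT_eq {g r τ : ℝ} (ht : 0 < τ) (h : nn g r = log (1 + τ) - log τ) : TT g r = τ := by
  unfold TT
  rw [h, ← log_div (by linarith) ht.ne', exp_log (by positivity)]
  field_simp
  ring

theorem d_TT {g r : ℝ} (hg : 0 < g) (h0 : 0 < r) (h1 : r < 1) (hn : 0 < nn g r) :
    HasDerivAt (TT g) (-(TT g r * (1 + TT g r) * (kap g r / (r * (1 - r ^ 2))))) r := by
  have h2 := TT_pos hn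
  have h3 := exp_nn hn
  have a1 := (d_nn hg h0 h1).exp.sub_const 1
  have h5 : exp (nn g r) - 1 ≠ 0 := by
    have := Real.add_one_le_exp (nn g r)
    linarith
  have a2 := a1.inv h5
  refine a2.congr_deriv ?_
  have h6 : exp (nn g r) - 1 = 1 / TT g r := by
    rw [h3]; field_simp; ring
  rw [h6, h3]
  field_simp

theorem d_RR {g r : ℝ} (hg : 0 < g) (h0 : 0 < r) (h1 : r < 1) (hn : 0 < nn g r) :
    HasDerivAt (RR g) (TT g r * (1 - (1 + TT g r) * kap g r / (1 - r ^ 2))) r := by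
  have hp := (one_sub_sq_pos (show r ∈ Ioo (-1 : ℝ) 1 from ⟨by linarith, h1⟩)).ne'
  have a := (hasDerivAt_id r).mul (d_TT hg h0 h1 hn)
  refine a.congr_deriv ?_
  simp only [id]
  field_simp
  ring

/-- lower bound of `κ` on the curve -/
theorem kap_lower {g r : ℝ} (hg : 0 < g) (h0 : 0 < r) (h1 : r < 1) (hn : 0 < nn g r) :
    2 / (1 + TT g r) ≤ kap g r := by
  have hm : r ∈ Ioo (-1 : ℝ) 1 := ⟨by linarith, h1⟩
  have hp := one_sub_sq_pos hm
  have h2 := TT_pos hn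
  have h3 := log_lower h2
  have h4 := l_upper hm
  have h5 : kap g r = 2 * (nn g r - l r) - r ^ 2 := by
    unfold kap nn; field_simp; ring
  rw [h5, nn_eq hn]
  have h6 : 2 / (1 + TT g r) = 2 * (1 / (1 + TT g r)) := by ring
  rw [h6]
  linarith

theorem RR_deriv_le {g r : ℝ} (hg : 0 < g) (h0 : 0 < r) (h1 : r < 1) (hn : 0 < nn g r)
    (hT : 1 ≤ TT g r) : TT g r * (1 - (1 + TT g r) * kap g r / (1 - r ^ 2)) ≤ -1 := by
  have hm : r ∈ Ioo (-1 : ℝ) 1 := ⟨by linarith, h1⟩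
  have hp := one_sub_sq_pos hm
  have h2 := kap_lower hg h0 h1 hn
  have h3 : 0 < 1 + TT g r := by linarith
  have h4 : 2 ≤ (1 + TT g r) * kap g r := by
    have := mul_le_mul_of_nonneg_left h2 h3.le
    have e : (1 + TT g r) * (2 / (1 + TT g r)) = 2 := by field_simp
    linarith
  have h5 : 2 ≤ (1 + TT g r) * kap g r / (1 - r ^ 2) := by
    rw [le_div_iff₀ hp]
    nlinarith [sq_nonneg r]
  nlinarith

theorem d_GG {g r : ℝ} (hg : 0 < g) (h0 : 0 < r) (h1 : r < 1) (hn : 0 < nn g r)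
    (hR0 : 0 ≤ RR g r) (hR : RR g r < 1) :
    HasDerivAt (GG g) (BB g r * (TT g r * (1 - (1 + TT g r) * kap g r / (1 - r ^ 2)))) r := by
  have hm : r ∈ Ioo (-1 : ℝ) 1 := ⟨by linarith, h1⟩
  have hp := one_sub_sq_pos hm
  have hmR : RR g r ∈ Ioo (-1 : ℝ) 1 := ⟨by linarith, hR⟩
  have h2 := TT_pos hn
  -- near `r`, `GG` is the expression without division
  have hGG : GG g =ᶠ[nhds r] fun x => phi g (RR g x) + TT g x * phi g x
      + g * ((1 + TT g x) * log (1 + TT g x) - TT g x * log (TT g x)) := by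
    have hc : ContinuousAt (TT g) r := (d_TT hg h0 h1 hn).continuousAt
    have := hc.eventually (isOpen_Ioi.mem_nhds h2)
    filter_upwards [this] with x hx
    have hx : 0 < TT g x := hx
    have e : RR g x / TT g x = x := by unfold RR; field_simp
    unfold GG gT
    rw [e]
  refine HasDerivAt.congr_of_eventuallyEq ?_ hGG
  have a1 : HasDerivAt (fun x => phi g (RR g x)) _ r :=
    HasDerivAt.comp (h₂ := phi g) r (dphi hmR) (d_RR hg h0 h1 hn)
  have a2 := (d_TT hg h0 h1 hn).mul (dphi (g := g) hm)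
  have a3 : HasDerivAt (fun x => (1 + TT g x) * log (1 + TT g x) - TT g x * log (TT g x)) _ r :=
    HasDerivAt.comp (h₂ := fun τ => (1 + τ) * log (1 + τ) - τ * log τ) r (d_tlogt h2)
      (d_TT hg h0 h1 hn)
  refine ((a1.add a2).add (a3.const_mul g)).congr_deriv ?_
  have e1 := phi_sub (g := g) hm
  have e2 : g * nn g r = r ^ 2 / (1 - r ^ 2) + g * l r := by
    unfold nn; field_simp
  have e3 : phi g r = r * phi1 g r - g * nn g r := by linarith
  rw [← nn_eq hn, e3]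
  unfold BB
  field_simp
  ring

theorem d_BB {g r : ℝ} (hg : 0 < g) (h0 : 0 < r) (h1 : r < 1) (hn : 0 < nn g r)
    (hR0 : 0 ≤ RR g r) (hR : RR g r < 1) :
    HasDerivAt (BB g) (phi2 g (RR g r) * (TT g r * (1 - (1 + TT g r) * kap g r / (1 - r ^ 2)))
      + phi2 g r) r := by
  have hm : r ∈ Ioo (-1 : ℝ) 1 := ⟨by linarith, h1⟩
  have hmR : RR g r ∈ Ioo (-1 : ℝ) 1 := ⟨by linarith, hR⟩
  have a1 : HasDerivAt (fun x => phi1 g (RR g x)) _ r :=
    HasDerivAt.comp (h₂ := phi1 g) r (dphi1 hmR) (d_RR hg h0 h1 hn)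
  exact a1.add (dphi1 hm)

/-- An arc of the critical curve. -/
structure Arc (g a b : ℝ) : Prop where
  hg : 0 < g
  ha : 0 < a
  hab : a ≤ b
  hb : b < 1
  hna : 0 < nn g a
  hTb : 1 ≤ TT g b
  hRa : RR g a < 1

namespace Arc

variable {g a b : ℝ} (h : Arc g a b)

include h

theorem kap_pos_a : 0 < kap g a := by
  have ha1 : a < 1 := lt_of_le_of_lt h.hab h.hb
  have h1 := kap_lower h.hg h.ha ha1 h.hna
  have h2 := TT_pos h.hna
  have : 0 < 2 / (1 + TT g a) := by positivity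
  linarith

theorem kap_pos {x : ℝ} (hx : x ∈ Icc a b) : 0 < kap g x := by
  have h1 := h.kap_pos_a
  have hg := h.hg
  have ha := h.ha
  have hx0 : 0 < x := lt_of_lt_of_le ha hx.1
  have hx1 : x < 1 := lt_of_le_of_lt hx.2 h.hb
  have ha1 : a < 1 := lt_of_le_of_lt h.hab h.hb
  have hp := one_sub_sq_pos (show x ∈ Ioo (-1 : ℝ) 1 from ⟨by linarith, hx1⟩)
  have hpa := one_sub_sq_pos (show a ∈ Ioo (-1 : ℝ) 1 from ⟨by linarith, ha1⟩)
  unfold kap at h1 ⊢
  have h2 : 0 < 2 / (g * (1 - a ^ 2)) - 1 := by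
    by_contra hcon
    push Not at hcon
    nlinarith [sq_nonneg a]
  have h3 : 2 / (g * (1 - a ^ 2)) ≤ 2 / (g * (1 - x ^ 2)) := by
    apply div_le_div_of_nonneg_left (by norm_num) (by positivity)
    apply mul_le_mul_of_nonneg_left _ hg.le
    nlinarith [hx.1]
  have h4 : 0 < 2 / (g * (1 - x ^ 2)) - 1 := by linarith
  positivity

theorem nn_mono : MonotoneOn (nn g) (Icc a b) := by
  have hg := h.hg
  have ha := h.ha
  have hb := h.hb
  refine monotoneOn_of_deriv_nonneg (convex_Icc a b) ?_ ?_ ?_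
  · intro t ht
    exact (d_nn hg (by linarith [ht.1]) (by linarith [ht.2])).continuousAt.continuousWithinAt
  · intro t ht
    rw [interior_Icc] at ht
    exact (d_nn hg (by linarith [ht.1]) (by linarith [ht.2])).differentiableAt.differentiableWithinAt
  · intro t ht
    rw [interior_Icc] at ht
    have h0 : 0 < t := by linarith [ht.1]
    have h1 : t < 1 := by linarith [ht.2]
    rw [(d_nn hg h0 h1).deriv]
    have hp := one_sub_sq_pos (show t ∈ Ioo (-1 : ℝ) 1 from ⟨by linarith, h1⟩)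
    have := h.kap_pos (show t ∈ Icc a b from ⟨ht.1.le, ht.2.le⟩)
    positivity

theorem nn_pos {x : ℝ} (hx : x ∈ Icc a b) : 0 < nn g x := by
  have := h.nn_mono (show a ∈ Icc a b from ⟨le_rfl, h.hab⟩) hx hx.1
  linarith [h.hna]

theorem TT_ge {x : ℝ} (hx : x ∈ Icc a b) : 1 ≤ TT g x := by
  have h1 := h.nn_mono hx (show b ∈ Icc a b from ⟨h.hab, le_rfl⟩) hx.2
  have h2 := h.nn_pos hx
  have h3 := Real.add_one_le_exp (nn g x)
  have h4 : exp (nn g x) ≤ exp (nn g b) := exp_le_exp.2 h1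
  refine le_trans h.hTb ?_
  unfold TT
  have h5 : 0 < exp (nn g x) - 1 := by linarith
  gcongr

theorem RR_pos {x : ℝ} (hx : x ∈ Icc a b) : 0 < RR g x := by
  have := h.TT_ge hx
  have := h.ha
  have hx0 : 0 < x := by linarith [hx.1]
  unfold RR
  positivity

theorem RR_anti : AntitoneOn (RR g) (Icc a b) := by
  have hg := h.hg
  have ha := h.ha
  have hb := h.hb
  refine antitoneOn_of_deriv_nonpos (convex_Icc a b) ?_ ?_ ?_
  · intro t ht
    exact (d_RR hg (by linarith [ht.1]) (by linarith [ht.2])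
      (h.nn_pos ht)).continuousAt.continuousWithinAt
  · intro t ht
    rw [interior_Icc] at ht
    exact (d_RR hg (by linarith [ht.1]) (by linarith [ht.2])
      (h.nn_pos ⟨ht.1.le, ht.2.le⟩)).differentiableAt.differentiableWithinAt
  · intro t ht
    rw [interior_Icc] at ht
    have h0 : 0 < t := by linarith [ht.1]
    have h1 : t < 1 := by linarith [ht.2]
    have ht' : t ∈ Icc a b := ⟨ht.1.le, ht.2.le⟩
    rw [(d_RR hg h0 h1 (h.nn_pos ht')).deriv]
    have := RR_deriv_le hg h0 h1 (h.nn_pos ht') (h.TT_ge ht')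
    linarith

theorem RR_lt {x : ℝ} (hx : x ∈ Icc a b) : RR g x < 1 := by
  have := h.RR_anti (show a ∈ Icc a b from ⟨le_rfl, h.hab⟩) hx hx.1
  linarith [h.hRa]

theorem BB_anti : AntitoneOn (BB g) (Icc a b) := by
  have hg := h.hg
  have ha := h.ha
  have hb := h.hb
  refine antitoneOn_of_deriv_nonpos (convex_Icc a b) ?_ ?_ ?_
  · intro t ht
    exact (d_BB hg (by linarith [ht.1]) (by linarith [ht.2])
      (h.nn_pos ht) (h.RR_pos ht).le (h.RR_lt ht)).continuousAt.continuousWithinAt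
  · intro t ht
    rw [interior_Icc] at ht
    have ht' : t ∈ Icc a b := ⟨ht.1.le, ht.2.le⟩
    exact (d_BB hg (by linarith [ht.1]) (by linarith [ht.2])
      (h.nn_pos ht') (h.RR_pos ht').le (h.RR_lt ht')).differentiableAt.differentiableWithinAt
  · intro t ht
    rw [interior_Icc] at ht
    have h0 : 0 < t := by linarith [ht.1]
    have h1 : t < 1 := by linarith [ht.2]
    have ht' : t ∈ Icc a b := ⟨ht.1.le, ht.2.le⟩
    rw [(d_BB hg h0 h1 (h.nn_pos ht') (h.RR_pos ht').le (h.RR_lt ht')).deriv]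
    have hT := h.TT_ge ht'
    have h2 := RR_deriv_le hg h0 h1 (h.nn_pos ht') hT
    have h3 := h.kap_pos ht'
    have hR := h.RR_lt ht'
    have hRt : t ≤ RR g t := by
      unfold RR; nlinarith
    have hp := one_sub_sq_pos (show t ∈ Ioo (-1 : ℝ) 1 from ⟨by linarith, h1⟩)
    have hpR := one_sub_sq_pos (show RR g t ∈ Ioo (-1 : ℝ) 1 from ⟨by linarith, hR⟩)
    have h4 : 0 < 2 / (1 - t ^ 2) - g := by
      have e : kap g t = t ^ 2 / g * (2 / (1 - t ^ 2) - g) := by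
        unfold kap; field_simp
      rw [e] at h3
      have : 0 < t ^ 2 / g := by positivity
      exact (pos_iff_pos_of_mul_pos h3).1 this
    have h5 : 1 / (1 - t ^ 2) ≤ 1 / (1 - RR g t ^ 2) := by
      apply one_div_le_one_div_of_le hpR
      nlinarith
    have h6 : 2 / (1 - t ^ 2) = 2 * (1 / (1 - t ^ 2)) := by ring
    have h7 : 2 / (1 - RR g t ^ 2) = 2 * (1 / (1 - RR g t ^ 2)) := by ring
    have h8 : 2 / (1 - t ^ 2) - g ≤ 2 / (1 - RR g t ^ 2) - g := by rw [h6, h7]; linarith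
    have h9 : phi2 g t ≤ phi2 g (RR g t) := by
      unfold phi2
      rw [div_eq_mul_one_div, div_eq_mul_one_div (2 / (1 - RR g t ^ 2) - g)]
      have : 0 < 1 / (1 - t ^ 2) := by positivity
      exact mul_le_mul h8 h5 this.le (by linarith)
    have h10 : 0 < phi2 g t := by
      unfold phi2; positivity
    nlinarith

theorem GG_left : GG g b + BB g b * (RR g a - RR g b) ≤ GG g a := by
  have hg := h.hg
  have ha := h.ha
  have hb := h.hb
  have hd : ∀ t ∈ Icc a b, HasDerivAt (fun x => GG g x - BB g b * RR g x)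
      ((BB g t - BB g b) * (TT g t * (1 - (1 + TT g t) * kap g t / (1 - t ^ 2)))) t := by
    intro t ht
    have h0 : 0 < t := by linarith [ht.1]
    have h1 : t < 1 := by linarith [ht.2]
    have a1 := d_GG hg h0 h1 (h.nn_pos ht) (h.RR_pos ht).le (h.RR_lt ht)
    have a2 := (d_RR hg h0 h1 (h.nn_pos ht)).const_mul (BB g b)
    refine (a1.sub a2).congr_deriv ?_
    ring
  have hanti : AntitoneOn (fun x => GG g x - BB g b * RR g x) (Icc a b) := by
    refine antitoneOn_of_deriv_nonpos (convex_Icc a b) ?_ ?_ ?_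
    · intro t ht
      exact (hd t ht).continuousAt.continuousWithinAt
    · intro t ht
      rw [interior_Icc] at ht
      exact (hd t ⟨ht.1.le, ht.2.le⟩).differentiableAt.differentiableWithinAt
    · intro t ht
      rw [interior_Icc] at ht
      have ht' : t ∈ Icc a b := ⟨ht.1.le, ht.2.le⟩
      rw [(hd t ht').deriv]
      have h0 : 0 < t := by linarith [ht.1]
      have h1 : t < 1 := by linarith [ht.2]
      have h2 := RR_deriv_le hg h0 h1 (h.nn_pos ht') (h.TT_ge ht')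
      have h3 := h.BB_anti ht' (show b ∈ Icc a b from ⟨h.hab, le_rfl⟩) ht'.2
      nlinarith
  have := hanti (show a ∈ Icc a b from ⟨le_rfl, h.hab⟩) (show b ∈ Icc a b from ⟨h.hab, le_rfl⟩) h.hab
  simp only at this
  linarith

theorem GG_right : GG g a + BB g a * (RR g b - RR g a) ≤ GG g b := by
  have hg := h.hg
  have ha := h.ha
  have hb := h.hb
  have hd : ∀ t ∈ Icc a b, HasDerivAt (fun x => GG g x - BB g a * RR g x)
      ((BB g t - BB g a) * (TT g t * (1 - (1 + TT g t) * kap g t / (1 - t ^ 2)))) t := by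
    intro t ht
    have h0 : 0 < t := by linarith [ht.1]
    have h1 : t < 1 := by linarith [ht.2]
    have a1 := d_GG hg h0 h1 (h.nn_pos ht) (h.RR_pos ht).le (h.RR_lt ht)
    have a2 := (d_RR hg h0 h1 (h.nn_pos ht)).const_mul (BB g a)
    refine (a1.sub a2).congr_deriv ?_
    ring
  have hmono : MonotoneOn (fun x => GG g x - BB g a * RR g x) (Icc a b) := by
    refine monotoneOn_of_deriv_nonneg (convex_Icc a b) ?_ ?_ ?_
    · intro t ht
      exact (hd t ht).continuousAt.continuousWithinAt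
    · intro t ht
      rw [interior_Icc] at ht
      exact (hd t ⟨ht.1.le, ht.2.le⟩).differentiableAt.differentiableWithinAt
    · intro t ht
      rw [interior_Icc] at ht
      have ht' : t ∈ Icc a b := ⟨ht.1.le, ht.2.le⟩
      rw [(hd t ht').deriv]
      have h0 : 0 < t := by linarith [ht.1]
      have h1 : t < 1 := by linarith [ht.2]
      have h2 := RR_deriv_le hg h0 h1 (h.nn_pos ht') (h.TT_ge ht')
      have h3 := h.BB_anti (show a ∈ Icc a b from ⟨le_rfl, h.hab⟩) ht' ht'.1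
      nlinarith
  have := hmono (show a ∈ Icc a b from ⟨le_rfl, h.hab⟩) (show b ∈ Icc a b from ⟨h.hab, le_rfl⟩) h.hab
  simp only at this
  linarith

end Arc

/-! ## Critical points -/

theorem l_nonpos {r : ℝ} (h : r ∈ Ioo (-1 : ℝ) 1) : l r ≤ 0 := by
  have := l_upper h
  nlinarith [sq_nonneg r]

theorem NN_one (ρ : ℝ) : NN ρ 1 = log 2 - l ρ := by
  unfold NN; norm_num

theorem kk_one (ρ : ℝ) : kk ρ 1 = (1 - ρ ^ 2) * (log 2 - l ρ) := by
  unfold kk; rw [NN_one]; norm_num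

theorem d_kk_one {ρ : ℝ} (h : ρ ∈ Ioo (-1 : ℝ) 1) :
    HasDerivAt (fun ρ => kk ρ 1) (-(2 * ρ) * (log 2 - l ρ) + ρ) ρ := by
  have a : HasDerivAt (fun ρ : ℝ => (1 - ρ ^ 2) * (log 2 - l ρ))
      (-(2 * ρ) * (log 2 - l ρ) + (1 - ρ ^ 2) * (-(-ρ / (1 - ρ ^ 2)))) ρ := by
    have b := ((hasDerivAt_pow 2 ρ).const_sub 1).mul ((dl h).const_sub (log 2))
    refine b.congr_deriv ?_
    norm_num
  have hp := (one_sub_sq_pos h).ne'
  have e : (fun ρ : ℝ => kk ρ 1) = fun ρ : ℝ => (1 - ρ ^ 2) * (log 2 - l ρ) := by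
    funext x; exact kk_one x
  rw [e]
  refine a.congr_deriv ?_
  field_simp

theorem kk_one_anti : AntitoneOn (fun ρ => kk ρ 1) (Ico 0 1) := by
  refine antitoneOn_of_deriv_nonpos (convex_Ico 0 1) ?_ ?_ ?_
  · intro t ht
    exact (d_kk_one ⟨by linarith [ht.1], ht.2⟩).continuousAt.continuousWithinAt
  · intro t ht
    rw [interior_Ico] at ht
    exact (d_kk_one ⟨by linarith [ht.1], ht.2⟩).differentiableAt.differentiableWithinAt
  · intro t ht
    rw [interior_Ico] at ht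
    have hm : t ∈ Ioo (-1 : ℝ) 1 := ⟨by linarith [ht.1], ht.2⟩
    rw [(d_kk_one hm).deriv]
    have h1 := l_nonpos hm
    have h2 := Real.log_two_gt_d9
    have h3 := ht.1
    nlinarith

/-- Critical points: `g * kk ρ τ = ρ²`. -/
structure Crit (g ρ τ : ℝ) : Prop where
  hg : 0 < g
  h0 : 0 < ρ
  h1 : ρ < 1
  ht : 1 ≤ τ
  hc : g * kk ρ τ = ρ ^ 2

namespace Crit

variable {g ρ τ : ℝ} (h : Crit g ρ τ)

include h

theorem nn_eq' : nn g (ρ / τ) = log (1 + τ) - log τ := by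
  have hg := h.hg
  have h0 := h.h0
  have h1 := h.h1
  have ht := h.ht
  have hτ : 0 < τ := by linarith
  have e1 : 0 < τ ^ 2 - ρ ^ 2 := by nlinarith
  have e2 : 1 - (ρ / τ) ^ 2 = (τ ^ 2 - ρ ^ 2) / τ ^ 2 := by field_simp
  have hc := h.hc
  unfold kk at hc
  have e3 : NN ρ τ = ρ ^ 2 / (g * (τ ^ 2 - ρ ^ 2)) := by
    rw [eq_div_iff (by positivity)]
    linarith
  have e4 : (ρ / τ) ^ 2 / (g * (1 - (ρ / τ) ^ 2)) = ρ ^ 2 / (g * (τ ^ 2 - ρ ^ 2)) := by
    rw [e2]; field_simp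
  unfold nn
  rw [e4, ← e3]
  unfold NN
  ring

theorem nn_pos : 0 < nn g (ρ / τ) := by
  rw [h.nn_eq']
  have := h.ht
  have h2 := log_lower (by linarith : 0 < τ)
  have : 0 < 1 / (1 + τ) := by positivity
  linarith

theorem TT_eq' : TT g (ρ / τ) = τ := TT_eq (by linarith [h.ht]) h.nn_eq'

theorem RR_eq' : RR g (ρ / τ) = ρ := by
  unfold RR
  rw [h.TT_eq']
  have := h.ht
  have : τ ≠ 0 := by linarith
  field_simp

theorem GG_eq' : GG g (ρ / τ) = gT g ρ τ := by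
  unfold GG; rw [h.TT_eq', h.RR_eq']

theorem BB_eq' : BB g (ρ / τ) = phi1 g ρ + phi1 g (ρ / τ) := by
  unfold BB; rw [h.RR_eq']

theorem r_pos : 0 < ρ / τ := by
  have := h.ht
  have := h.h0
  positivity

theorem r_lt : ρ / τ < 1 := (rat_mem h.h0.le h.h1 h.ht).2

theorem r_le : ρ / τ ≤ ρ := div_le_self h.h0.le h.ht

theorem arc {ρ' τ' : ℝ} (h' : Crit g ρ' τ') (hr : ρ / τ ≤ ρ' / τ') : Arc g (ρ / τ) (ρ' / τ') where
  hg := h.hg
  ha := h.r_pos
  hab := hr
  hb := h'.r_lt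
  hna := h.nn_pos
  hTb := by rw [h'.TT_eq']; exact h'.ht
  hRa := by rw [h.RR_eq']; exact h.h1

theorem two_points {ρ' τ' : ℝ} (h' : Crit g ρ' τ') :
    gT g ρ τ + (phi1 g ρ + phi1 g (ρ / τ)) * (ρ' - ρ) ≤ gT g ρ' τ' := by
  rcases le_total (ρ / τ) (ρ' / τ') with hr | hr
  · have := (h.arc h' hr).GG_right
    rw [h.GG_eq', h'.GG_eq', h.BB_eq', h.RR_eq', h'.RR_eq'] at this
    exact this
  · have := (h'.arc h hr).GG_left
    rw [h.GG_eq', h'.GG_eq', h.BB_eq', h.RR_eq', h'.RR_eq'] at this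
    exact this

end Crit

theorem gT_one (g : ℝ) (ρ : ℝ) : gT g ρ 1 = 2 * (ρ * A ρ + g * H ρ) := by
  unfold gT phi J
  norm_num
  ring

theorem zero_line {g p : ℝ} (h : Crit g p 1) :
    gT g p 1 = (phi1 g p + phi1 g (p / 1)) * p := by
  rw [gT_one, div_one]
  have hm : p ∈ Ioo (-1 : ℝ) 1 := ⟨by linarith [h.h0], h.h1⟩
  have hp := one_sub_sq_pos hm
  have hc := h.hc
  rw [kk_one] at hc
  have e1 : p ^ 2 / (1 - p ^ 2) = g * (log 2 - l p) := by
    rw [div_eq_iff hp.ne']; linarith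
  have e2 := J_sub hm
  have e3 : J p = log 2 - H p := rfl
  unfold phi1
  have e4 : p / (1 - p ^ 2) * p = p ^ 2 / (1 - p ^ 2) := by ring
  have e5 : ((1 - g) * A p + p / (1 - p ^ 2) + ((1 - g) * A p + p / (1 - p ^ 2))) * p
      = 2 * ((1 - g) * (p * A p)) + 2 * (p / (1 - p ^ 2) * p) := by ring
  rw [e5, e4, e1, ← e2, e3]
  ring

/-- the tangent property on the line `τ = 1`, left part. -/
theorem K_tangent {g p ρ : ℝ} (h : Crit g p 1) (h0 : 0 < ρ) (h1 : ρ ≤ p) :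
    (phi1 g p + phi1 g (p / 1)) * ρ ≤ gT g ρ 1 := by
  have hg := h.hg
  have hp0 := h.h0
  have hp1 := h.h1
  have hd : ∀ t ∈ Icc ρ p, HasDerivAt (fun t => A t + g * (H t / t))
      (1 / (1 - t ^ 2) + g * (((-A t) * t - H t * 1) / t ^ 2)) t := by
    intro t ht
    have hm : t ∈ Ioo (-1 : ℝ) 1 := ⟨by linarith [ht.1], by linarith [ht.2]⟩
    have ht0 : t ≠ 0 := by linarith [ht.1]
    exact (dA hm).add (((hasDerivAt_H hm).div (hasDerivAt_id t) ht0).const_mul g)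
  have hanti : AntitoneOn (fun t => A t + g * (H t / t)) (Icc ρ p) := by
    refine antitoneOn_of_deriv_nonpos (convex_Icc ρ p) ?_ ?_ ?_
    · intro t ht
      exact (hd t ht).continuousAt.continuousWithinAt
    · intro t ht
      rw [interior_Icc] at ht
      exact (hd t ⟨ht.1.le, ht.2.le⟩).differentiableAt.differentiableWithinAt
    · intro t ht
      rw [interior_Icc] at ht
      have ht' : t ∈ Icc ρ p := ⟨ht.1.le, ht.2.le⟩
      rw [(hd t ht').deriv]
      have hm : t ∈ Ioo (-1 : ℝ) 1 := ⟨by linarith [ht.1], by linarith [ht.2]⟩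
      have ht0 : 0 < t := by linarith [ht.1]
      have hpt := one_sub_sq_pos hm
      have e2 := J_sub hm
      have e3 : J t = log 2 - H t := rfl
      have e4 : (-A t) * t - H t * 1 = -(log 2 - l t) := by rw [← e2, e3]; ring
      rw [e4]
      have h5 := kk_one_anti (show t ∈ Ico (0 : ℝ) 1 from ⟨ht0.le, hm.2⟩)
        (show p ∈ Ico (0 : ℝ) 1 from ⟨hp0.le, hp1⟩) ht.2.le
      simp only at h5
      have h6 : t ^ 2 ≤ g * kk t 1 := by
        have := mul_le_mul_of_nonneg_left h5 hg.le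
        rw [h.hc] at this
        nlinarith [ht.2]
      rw [kk_one] at h6
      have h7 : 1 / (1 - t ^ 2) + g * (-(log 2 - l t) / t ^ 2)
          = (t ^ 2 - g * ((1 - t ^ 2) * (log 2 - l t))) / ((1 - t ^ 2) * t ^ 2) := by
        field_simp
        ring
      rw [h7]
      apply div_nonpos_of_nonpos_of_nonneg
      · linarith
      · positivity
  have h2 := hanti (show ρ ∈ Icc ρ p from ⟨le_rfl, h1⟩) (show p ∈ Icc ρ p from ⟨h1, le_rfl⟩) h1
  simp only at h2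
  have h3 := zero_line h
  rw [gT_one] at h3 ⊢
  have h4 : (phi1 g p + phi1 g (p / 1)) = 2 * (A p + g * (H p / p)) := by
    have : (phi1 g p + phi1 g (p / 1)) = 2 * (p * A p + g * H p) / p := by
      rw [h3]; field_simp
    rw [this]; field_simp
  rw [h4]
  have h5 : 2 * (ρ * A ρ + g * H ρ) = 2 * (A ρ + g * (H ρ / ρ)) * ρ := by field_simp
  rw [h5]
  nlinarith

theorem kk_pos {ρ τ : ℝ} (h0 : 0 ≤ ρ) (h1 : ρ < 1) (ht : 1 ≤ τ) : 0 < kk ρ τ := by
  have h2 := NN_lower h0 h1 ht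
  have h3 : 0 < 1 / (1 + τ) + (ρ / τ) ^ 2 / 2 := by positivity
  have e1 : 0 < τ ^ 2 - ρ ^ 2 := by nlinarith
  unfold kk
  exact mul_pos e1 (by linarith)

theorem kk_lower {ρ τ : ℝ} (h0 : 0 ≤ ρ) (h1 : ρ < 1) (ht : 1 ≤ τ) : τ - 1 ≤ kk ρ τ := by
  have h2 := NN_lower h0 h1 ht
  have h3 : 0 ≤ (ρ / τ) ^ 2 / 2 := by positivity
  have e1 : τ ^ 2 - 1 ≤ τ ^ 2 - ρ ^ 2 := by nlinarith
  have e2 : τ - 1 = (τ ^ 2 - 1) * (1 / (1 + τ)) := by field_simp; ring
  unfold kk
  rw [e2]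
  apply mul_le_mul e1 (by linarith) (by positivity) (by nlinarith)

theorem exists_crit {g ρ : ℝ} (hg : 0 < g) (h0 : 0 < ρ) (h1 : ρ < 1)
    (h : g * kk ρ 1 ≤ ρ ^ 2) : ∃ τ, Crit g ρ τ := by
  have hc : ContinuousOn (fun τ => g * kk ρ τ) (Icc 1 (1 + 1 / g)) := by
    intro t ht
    have hm := d_NN h0.le h1 ht.1
    have h2 : ContinuousAt (fun τ => (τ ^ 2 - ρ ^ 2) * NN ρ τ) t := by
      have := hm.continuousAt
      fun_prop
    exact (h2.const_mul g).continuousWithinAt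
  have h2 : (1 : ℝ) ≤ 1 + 1 / g := by
    have : 0 < 1 / g := by positivity
    linarith
  have h3 : ρ ^ 2 ≤ g * kk ρ (1 + 1 / g) := by
    have h4 := mul_le_mul_of_nonneg_left (kk_lower h0.le h1 h2) hg.le
    have e : g * (1 + 1 / g - 1) = 1 := by field_simp; ring
    rw [e] at h4
    nlinarith
  obtain ⟨τ, hτ, h4⟩ := intermediate_value_Icc h2 hc ⟨h, h3⟩
  exact ⟨τ, ⟨hg, h0, h1, hτ.1, h4⟩⟩

theorem exists_base {g ρ τ : ℝ} (h : Crit g ρ τ) : ∃ p, p ≤ ρ ∧ Crit g p 1 := by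
  have hg := h.hg
  have h0 := h.h0
  have h1 := h.h1
  have hc : ContinuousOn (fun ρ => ρ ^ 2 - g * kk ρ 1) (Icc 0 ρ) := by
    intro t ht
    have hm := d_kk_one (show t ∈ Ioo (-1 : ℝ) 1 from ⟨by linarith [ht.1], by linarith [ht.2]⟩)
    have h2 : ContinuousAt (fun ρ => kk ρ 1) t := hm.continuousAt
    have h3 : ContinuousAt (fun ρ : ℝ => ρ ^ 2 - g * kk ρ 1) t :=
      (continuousAt_id.pow 2).sub (h2.const_mul g)
    exact h3.continuousWithinAt
  have h2 : (0 : ℝ) ^ 2 - g * kk 0 1 < 0 := by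
    have := kk_pos (le_refl (0 : ℝ)) (by norm_num) (le_refl (1 : ℝ))
    nlinarith
  have h3 : 0 ≤ ρ ^ 2 - g * kk ρ 1 := by
    have h4 := kk_mono h0.le h1 (mem_Ici.2 le_rfl) (mem_Ici.2 h.ht) h.ht
    simp only at h4
    have := mul_le_mul_of_nonneg_left h4 hg.le
    rw [h.hc] at this
    linarith
  obtain ⟨p, hp, h4⟩ := intermediate_value_Icc h0.le hc ⟨h2.le, h3⟩
  simp only at h4
  have hp0 : 0 < p := by
    rcases eq_or_lt_of_le hp.1 with h5 | h5
    · rw [← h5] at h4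
      linarith
    · exact h5
  exact ⟨p, hp.2, ⟨hg, hp0, by linarith [hp.2], le_rfl, by linarith⟩⟩

/-- The supporting plane at a critical point. -/
theorem support {g r1 t1 : ℝ} (h : Crit g r1 t1) :
    gT g r1 t1 - (phi1 g r1 + phi1 g (r1 / t1)) * r1 ≤ 0 ∧
    0 ≤ phi1 g r1 + phi1 g (r1 / t1) ∧
    ∀ ρ τ : ℝ, 0 ≤ ρ → ρ < 1 → 1 ≤ τ →
      gT g r1 t1 + (phi1 g r1 + phi1 g (r1 / t1)) * (ρ - r1) ≤ gT g ρ τ := by
  obtain ⟨p, hp, hcp⟩ := exists_base h
  have hg := h.hg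
  set β := phi1 g r1 + phi1 g (r1 / t1) with hβ
  have hrp : r1 / t1 ≤ p / 1 := by
    by_contra hcon
    push Not at hcon
    have h2 := (hcp.arc h hcon.le).RR_anti ⟨le_rfl, hcon.le⟩ ⟨hcon.le, le_rfl⟩ hcon.le
    rw [h.RR_eq', hcp.RR_eq'] at h2
    have h3 := h.r_le
    rw [div_one] at hcon
    linarith
  have hββ : phi1 g p + phi1 g (p / 1) ≤ β := by
    have h2 := (h.arc hcp hrp).BB_anti ⟨le_rfl, hrp⟩ ⟨hrp, le_rfl⟩ hrp
    rw [h.BB_eq', hcp.BB_eq'] at h2
    exact h2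
  have hz := zero_line hcp
  have h2 := h.two_points hcp
  rw [hz, ← hβ] at h2
  have hp0 := hcp.h0
  have hα : gT g r1 t1 - β * r1 ≤ 0 := by
    have : (phi1 g p + phi1 g (p / 1)) * p ≤ β * p := mul_le_mul_of_nonneg_right hββ hp0.le
    nlinarith
  have hβp : 0 ≤ phi1 g p + phi1 g (p / 1) := by
    have h3 : 0 < gT g p 1 := by
      rw [gT_one]
      have h4 := A_pos hp0 hcp.h1
      have h5 := H_pos (show p ∈ Ioo (-1 : ℝ) 1 from ⟨by linarith, hcp.h1⟩)
      positivity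
    rw [hz] at h3
    by_contra hcon
    push Not at hcon
    nlinarith
  refine ⟨hα, by linarith, ?_⟩
  intro ρ τ hρ0 hρ1 hτ
  rcases le_or_gt p ρ with hpρ | hpρ
  · have hρpos : 0 < ρ := by linarith
    have h3 : g * kk ρ 1 ≤ ρ ^ 2 := by
      have h4 := kk_one_anti (show p ∈ Ico (0 : ℝ) 1 from ⟨hp0.le, hcp.h1⟩)
        (show ρ ∈ Ico (0 : ℝ) 1 from ⟨hρ0, hρ1⟩) hpρ
      simp only at h4
      have := mul_le_mul_of_nonneg_left h4 hg.le
      rw [hcp.hc] at this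
      nlinarith
    obtain ⟨t0, ht0⟩ := exists_crit hg hρpos hρ1 h3
    have h5 := h.two_points ht0
    rw [← hβ] at h5
    refine h5.trans ?_
    refine gT_min hg hρ0 hρ1 ht0.ht ?_ ht0.hc.ge hτ
    intro t ht1 ht2
    have h6 := kk_mono hρ0 hρ1 (mem_Ici.2 ht1) (mem_Ici.2 ht0.ht) ht2.le
    simp only at h6
    have := mul_le_mul_of_nonneg_left h6 hg.le
    rw [ht0.hc] at this
    exact this
  · have h3 : ρ ^ 2 ≤ g * kk ρ 1 := by
      have h4 := kk_one_anti (show ρ ∈ Ico (0 : ℝ) 1 from ⟨hρ0, hρ1⟩)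
        (show p ∈ Ico (0 : ℝ) 1 from ⟨hp0.le, hcp.h1⟩) hpρ.le
      simp only at h4
      have := mul_le_mul_of_nonneg_left h4 hg.le
      rw [hcp.hc] at this
      nlinarith
    have h4 : gT g ρ 1 ≤ gT g ρ τ :=
      gT_min hg hρ0 hρ1 le_rfl (fun t h1 h2 => absurd h1 (not_le.2 h2)) h3 hτ
    refine le_trans ?_ h4
    have h5 : (phi1 g p + phi1 g (p / 1)) * ρ ≤ gT g ρ 1 := by
      rcases eq_or_lt_of_le hρ0 with h6 | h6
      · rw [← h6, mul_zero, gT_one]
        have := H_pos (show (0 : ℝ) ∈ Ioo (-1 : ℝ) 1 from ⟨by norm_num, by norm_num⟩)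
        rw [zero_mul, zero_add]
        positivity
      · exact K_tangent hcp h6 hpρ.le
    refine le_trans ?_ h5
    nlinarith

end CK.Tan

namespace CK

open Tan

/-- Supporting planes (estimate (C)). -/
theorem C_tangent {M1 D1 : ℝ} (h0 : 0 ≤ M1) (h1 : 0 < D1) (h2 : M1 + D1 < 1) :
    ∃ al be ga : ℝ, al ≤ 0 ∧ 0 ≤ be ∧ 0 < ga ∧ (M1 = 0 → al = 0) ∧
      al * (1 - M1) + be * D1 = cm M1 D1 + ga * Ht M1 D1 ∧
      ∀ M D : ℝ, 0 ≤ M → 0 ≤ D → M + D < 1 →
        al * (1 - M) + be * D ≤ cm M D + ga * Ht M D := by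
  have hu : 0 < 1 - M1 := by linarith
  set r1 := D1 / (1 - M1) with hr1
  set t1 := (1 + M1) / (1 - M1) with ht1
  have hr0 : 0 < r1 := by positivity
  have hr2 : r1 < 1 := by rw [hr1, div_lt_one hu]; linarith
  have ht : 1 ≤ t1 := by rw [ht1, le_div_iff₀ hu]; linarith
  have hk := kk_pos hr0.le hr2 ht
  have hcr : Crit (r1 ^ 2 / kk r1 t1) r1 t1 :=
    ⟨by positivity, hr0, hr2, ht, by field_simp⟩
  set g := r1 ^ 2 / kk r1 t1 with hg
  obtain ⟨s1, s2, s3⟩ := support hcr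
  set β := phi1 g r1 + phi1 g (r1 / t1) with hβ
  refine ⟨(gT g r1 t1 - β * r1) / 2, β / 2, g, by linarith, by linarith, hcr.hg, ?_, ?_, ?_⟩
  · intro hM
    have ht' : t1 = 1 := by rw [ht1, hM]; norm_num
    have hcr' : Crit g r1 1 := ht' ▸ hcr
    have h3 := zero_line hcr'
    rw [hβ, ht', h3]
    ring
  · have h3 := gT_eq g h0 h1.le h2
    rw [← hr1, ← ht1] at h3
    have h4 : r1 * (1 - M1) = D1 := by rw [hr1]; field_simp
    linear_combination (-1 / 2) * h3 - (β / 2) * h4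
  · intro M D hM hD hMD
    have hv : 0 < 1 - M := by linarith
    have h3 := gT_eq g hM hD hMD
    have h4 := s3 (D / (1 - M)) ((1 + M) / (1 - M)) (by positivity)
      (by rw [div_lt_one hv]; linarith) (by rw [le_div_iff₀ hv]; linarith)
    have h5 := mul_le_mul_of_nonneg_left h4 hv.le
    rw [← h3] at h5
    have h6 : (1 - M) * (D / (1 - M)) = D := by field_simp
    have h7 : (1 - M) * (gT g r1 t1 + β * (D / (1 - M) - r1))
        = (1 - M) * (gT g r1 t1 - β * r1) + β * ((1 - M) * (D / (1 - M))) := by ring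
    rw [h7, h6] at h5
    linarith

end CK
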